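import Vale.Agent.P209.Defs

/-! # P209: Conjecture A for finitely many and for infinitely many balls -/

namespace Vale.Agent.P209

/-- Conjecture A in dimension `2n` (sufficiency of the two conditions) for finitely many balls. -/
def ConjA (n : ℕ) : Prop := ∀ (k : ℕ) (R : ℝ) (r : Fin k → ℝ), 0 < R → (∀ i, 0 < r i) →
  ∑ i, r i ^ n < R ^ n → (∀ i j, i < j → r i + r j < R) → Packs (openBall n R) r

/-- Conjecture A in dimension `2n` for infinite sequences of balls. -/
def ConjASeq (n : ℕ) : Prop := ∀ (R : ℝ) (r : ℕ → ℝ), 0 < R → (∀ i, 0 < r i) →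
  Summable (fun i => r i ^ n) → ∑' i, r i ^ n < R ^ n → (∀ i j, i < j → r i + r j < R) →
  Packs (openBall n R) r

end Vale.Agent.P209
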