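import Vale.Agent.P209.Bdl.B3

/-! # P209: packings by infinitely many balls -/

set_option linter.all false

open Filter Topology

namespace Vale.Agent.P209.Inf

open Vale.Agent.P209 Vale.Agent.P209.Strong

/-- The finite volume criterion: total volume less than `2 ^ (1 - n)` of the ball. -/
def CritD (n : ℕ) : Prop := ∀ (k : ℕ) (R : ℝ) (r : Fin k → ℝ), 0 < R → (∀ i, 0 < r i) →
  2 ^ (n - 1) * ∑ i, r i ^ n < R ^ n → Packs (openBall n R) r

/-- One container of the nested construction. -/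
structure St (n : ℕ) (r : ℕ → ℝ) where
  K : ℕ
  ρ : ℝ
  hρ : 0 < ρ
  h : 2 ^ (n - 1) * ∑' i, r (K + i) ^ n < ρ ^ n

/-- One step: in the container `ρ`, the balls `K ≤ i < K'` and the next container. -/
def Step {n : ℕ} {r : ℕ → ℝ} (S S' : St n r) (F : ℕ → (Fin n → ℂ) → (Fin n → ℂ))
    (G : (Fin n → ℂ) → (Fin n → ℂ)) : Prop :=
  S.K < S'.K ∧ IsSymplecticEmbedding S'.ρ G ∧
  G '' closedBall n S'.ρ ⊆ openBall n S.ρ ∧
  (∀ i, S.K ≤ i → i < S'.K → IsSymplecticEmbedding (r i) (F i) ∧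
    F i '' closedBall n (r i) ⊆ openBall n S.ρ ∧
    Disjoint (F i '' closedBall n (r i)) (G '' closedBall n S'.ρ)) ∧
  ∀ i j, S.K ≤ i → i < S'.K → S.K ≤ j → j < S'.K → i ≠ j →
    Disjoint (F i '' closedBall n (r i)) (F j '' closedBall n (r j))

theorem exists_small {n : ℕ} (hn : 1 ≤ n) {g C : ℝ} (hg : 0 < g) (hC : 0 < C) {b : ℝ}
    (hb : 0 < b) : ∃ ρ : ℝ, 0 < ρ ∧ ρ < b ∧ C * ρ ^ n < g := by
  refine ⟨min (min 1 (b / 2)) (g / (2 * C)), by positivity, ?_, ?_⟩
  · calc min (min 1 (b / 2)) (g / (2 * C)) ≤ b / 2 := (min_le_left _ _).trans (min_le_right _ _)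
      _ < b := by linarith
  · set ρ := min (min 1 (b / 2)) (g / (2 * C)) with hρ
    have h0 : 0 ≤ ρ := by positivity
    have h1 : ρ ≤ 1 := (min_le_left _ _).trans (min_le_left _ _)
    have h2 : ρ ≤ g / (2 * C) := min_le_right _ _
    have h3 : ρ ^ n ≤ ρ := by
      calc ρ ^ n ≤ ρ ^ 1 := pow_le_pow_of_le_one h0 h1 hn
        _ = ρ := pow_one _
    calc C * ρ ^ n ≤ C * (g / (2 * C)) := by
          refine mul_le_mul_of_nonneg_left (h3.trans h2) hC.le
      _ = g / 2 := by field_simp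
      _ < g := by linarith

theorem tail_small {f : ℕ → ℝ} {g C : ℝ} (hg : 0 < g) (hC : 0 < C) (K : ℕ) :
    ∃ K', K < K' ∧ C * ∑' i, f (K' + i) < g := by
  have h1 := tendsto_sum_nat_add f
  have h2 : ∀ᶠ K' in atTop, ∑' i, f (i + K') < g / C :=
    h1.eventually_lt_const (by positivity)
  obtain ⟨K', hK', h3⟩ := (h2.and (eventually_gt_atTop K)).exists
  refine ⟨K', h3, ?_⟩
  have h4 : ∑' i, f (K' + i) = ∑' i, f (i + K') := by
    refine tsum_congr fun i => ?_
    rw [add_comm]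
  rw [h4]
  calc C * ∑' i, f (i + K') < C * (g / C) := mul_lt_mul_of_pos_left hK' hC
    _ = g := by field_simp

theorem exists_step {n : ℕ} (hn : 1 ≤ n) (hD : CritD n) {r : ℕ → ℝ} (hr : ∀ i, 0 < r i)
    (hs : Summable fun i => r i ^ n) (S : St n r) : ∃ S' F G, Step S S' F G := by
  have hC : (0 : ℝ) < 2 ^ (n - 1) := by positivity
  obtain ⟨ρ', hρ', -, h1⟩ := exists_small hn (g := S.ρ ^ n - 2 ^ (n - 1) * ∑' i, r (S.K + i) ^ n)
    (C := 2 ^ (n - 1)) (sub_pos.2 S.h) hC one_pos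
  obtain ⟨K', hK', h2⟩ := tail_small (f := fun i => r i ^ n) (g := ρ' ^ n)
    (C := 2 ^ (n - 1)) (by positivity) hC S.K
  let c : Fin (K' - S.K + 1) → ℝ := fun i =>
    if (i : ℕ) < K' - S.K then r (S.K + i) else ρ'
  have hsum : ∑ i, c i ^ n = ∑ i ∈ Finset.range (K' - S.K), r (S.K + i) ^ n + ρ' ^ n := by
    rw [Fin.sum_univ_castSucc]
    congr 1
    · rw [← Fin.sum_univ_eq_sum_range (fun i => r (S.K + i) ^ n)]
      refine Finset.sum_congr rfl fun i _ => ?_
      have : ((Fin.castSucc i : Fin _) : ℕ) < K' - S.K := by simp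
      simp only [c, if_pos this]
      simp
    · simp [c]
  have hs' : Summable fun i => r (S.K + i) ^ n := by
    have := (summable_nat_add_iff (f := fun i => r i ^ n) S.K).2 hs
    refine this.congr fun i => ?_
    rw [add_comm]
  have hle : ∑ i ∈ Finset.range (K' - S.K), r (S.K + i) ^ n ≤ ∑' i, r (S.K + i) ^ n :=
    hs'.sum_le_tsum _ fun i _ => (pow_pos (hr _) n).le
  have hcrit : 2 ^ (n - 1) * ∑ i, c i ^ n < S.ρ ^ n := by
    rw [hsum, mul_add]
    have := mul_le_mul_of_nonneg_left hle hC.le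
    linarith
  obtain ⟨f, hf, hfR, hfd⟩ := hD _ S.ρ c S.hρ (fun i => by
    simp only [c]; split_ifs
    · exact hr _
    · exact hρ') hcrit
  have hidx : ∀ i, S.K ≤ i → i < K' → i - S.K < K' - S.K + 1 := fun i h1 h2 => by omega
  let F : ℕ → (Fin n → ℂ) → (Fin n → ℂ) := fun i =>
    if h : i - S.K < K' - S.K + 1 then f ⟨i - S.K, h⟩ else f (Fin.last _)
  have hcF : ∀ i (h1 : S.K ≤ i) (h2 : i < K'), c ⟨i - S.K, hidx i h1 h2⟩ = r i := by
    intro i h1 h2
    have h3 : i - S.K < K' - S.K := by omega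
    simp only [c, if_pos h3]
    congr 1
    omega
  have hcl : c (Fin.last _) = ρ' := by simp [c]
  have hFi : ∀ i (h1 : S.K ≤ i) (h2 : i < K'), F i = f ⟨i - S.K, hidx i h1 h2⟩ := by
    intro i h1 h2
    simp only [F, dif_pos (hidx i h1 h2)]
  refine ⟨⟨K', ρ', hρ', h2⟩, F, f (Fin.last _), hK', ?_, ?_, ?_, ?_⟩
  · have := hf (Fin.last _)
    rwa [hcl] at this
  · have := hfR (Fin.last _)
    rwa [hcl] at this
  · intro i hi1 hi2
    rw [hFi i hi1 hi2, ← hcF i hi1 hi2]
    refine ⟨hf _, hfR _, ?_⟩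
    have hne : (⟨i - S.K, hidx i hi1 hi2⟩ : Fin (K' - S.K + 1)) ≠ Fin.last _ := by
      intro h
      have := congrArg Fin.val h
      simp only [Fin.val_last] at this
      have hi2' : i < K' := hi2
      omega
    have := hfd hne
    simpa only [hcl] using this
  · intro i j hi1 hi2 hj1 hj2 hij
    rw [hFi i hi1 hi2, ← hcF i hi1 hi2, hFi j hj1 hj2, ← hcF j hj1 hj2]
    refine hfd ?_
    intro h
    have := congrArg Fin.val h
    simp only at this
    omega

/-- The identity embedding. -/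
theorem isSympl_id {n : ℕ} (r : ℝ) : IsSymplecticEmbedding (n := n) r fun z => z := by
  refine ⟨Set.univ, isOpen_univ, Set.subset_univ _, contDiffOn_id, ?_, ?_⟩
  · exact (Homeomorph.Set.univ (Fin n → ℂ)).isOpenEmbedding
  · intro z _ v w
    simp only [fderiv_id', ContinuousLinearMap.id_apply]

theorem injOn_of_sympl {n : ℕ} {r : ℝ} {f : (Fin n → ℂ) → (Fin n → ℂ)}
    (hf : IsSymplecticEmbedding r f) : Set.InjOn f (closedBall n r) := by
  obtain ⟨U, hUo, hU, -, hFe, -⟩ := hf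
  intro a ha b hb hab
  have h1 := hFe.injective (a₁ := ⟨a, hU ha⟩) (a₂ := ⟨b, hU hb⟩) hab
  exact congrArg Subtype.val h1

/-- **Infinitely many balls**, the volume criterion. -/
theorem packs_D {n : ℕ} (hn : 1 ≤ n) (hD : CritD n) {r : ℕ → ℝ} (hr : ∀ i, 0 < r i)
    (hs : Summable fun i => r i ^ n) {R : ℝ} (hR : 0 < R)
    (h : 2 ^ (n - 1) * ∑' i, r i ^ n < R ^ n) : Packs (openBall n R) r := by
  classical
  choose nx F G hstep using fun S : St n r => exists_step hn hD hr hs S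
  let s : ℕ → St n r := fun j => Nat.rec ⟨0, R, hR, by simpa using h⟩ (fun _ S => nx S) j
  have hs0 : (s 0).K = 0 := rfl
  have hsR : (s 0).ρ = R := rfl
  have hsS : ∀ j, s (j + 1) = nx (s j) := fun j => rfl
  let P : ℕ → (Fin n → ℂ) → (Fin n → ℂ) := fun j =>
    Nat.rec (fun z => z) (fun j Pj => fun z => Pj (G (s j) z)) j
  have hP0 : P 0 = fun z => z := rfl
  have hPS : ∀ j, P (j + 1) = fun z => P j (G (s j) z) := fun j => rfl
  have hst : ∀ j, Step (s j) (s (j + 1)) (F (s j)) (G (s j)) := fun j => hstep (s j)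
  -- the composed embeddings
  have hPe : ∀ j, IsSymplecticEmbedding (s j).ρ (P j) := by
    intro j
    induction j with
    | zero => exact isSympl_id _
    | succ j ih =>
      rw [hPS]
      exact e1b_comp ih (hst j).2.1 ((hst j).2.2.1.trans e1b_open_sub_closed)
  have hmono : ∀ j, P (j + 1) '' closedBall n (s (j + 1)).ρ ⊆ P j '' openBall n (s j).ρ := by
    intro j
    rintro _ ⟨z, hz, rfl⟩
    exact ⟨G (s j) z, (hst j).2.2.1 ⟨z, hz, rfl⟩, rfl⟩
  have hmono' : ∀ j l, j < l → P l '' closedBall n (s l).ρ ⊆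
      P (j + 1) '' closedBall n (s (j + 1)).ρ := by
    intro j l hjl
    obtain ⟨d, rfl⟩ := Nat.exists_eq_add_of_lt hjl
    induction d with
    | zero => exact subset_rfl
    | succ d ih =>
      have h1 : P (j + (d + 1) + 1) '' closedBall n (s (j + (d + 1) + 1)).ρ ⊆
          P (j + d + 1) '' openBall n (s (j + d + 1)).ρ := hmono (j + d + 1)
      refine h1.trans ((Set.image_mono e1b_open_sub_closed).trans ?_)
      exact ih (by omega)
  have hR' : ∀ j, P j '' openBall n (s j).ρ ⊆ openBall n R := by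
    intro j
    induction j with
    | zero => rintro _ ⟨z, hz, rfl⟩; exact hz
    | succ j ih =>
      refine (Set.image_mono e1b_open_sub_closed).trans ((hmono j).trans ih)
  -- the level of a ball
  have hK : StrictMono fun j => (s j).K := strictMono_nat_of_lt_succ fun j => (hst j).1
  have hlev : ∀ i, ∃ j, (s j).K ≤ i ∧ i < (s (j + 1)).K := by
    intro i
    have h1 : ∃ j, i < (s j).K := ⟨i + 1, (Nat.lt_succ_self i).trans_le (hK.le_apply (x := i + 1))⟩
    obtain ⟨hj1, hj2⟩ : i < (s (Nat.find h1)).K ∧ ∀ m < Nat.find h1, ¬ i < (s m).K :=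
      ⟨Nat.find_spec h1, fun m hm => Nat.find_min h1 hm⟩
    obtain ⟨j, hj⟩ : ∃ j, Nat.find h1 = j + 1 := by
      refine Nat.exists_eq_succ_of_ne_zero fun h0 => ?_
      rw [h0, hs0] at hj1
      exact absurd hj1 (Nat.not_lt_zero _)
    refine ⟨j, ?_, ?_⟩
    · exact not_lt.1 (hj2 j (by omega))
    · rw [← hj]; exact hj1
  choose lev hlev1 hlev2 using hlev
  have hFi : ∀ i, IsSymplecticEmbedding (r i) (F (s (lev i)) i) ∧
      F (s (lev i)) i '' closedBall n (r i) ⊆ openBall n (s (lev i)).ρ ∧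
      Disjoint (F (s (lev i)) i '' closedBall n (r i))
        (G (s (lev i)) '' closedBall n (s (lev i + 1)).ρ) := fun i =>
    (hst (lev i)).2.2.2.1 i (hlev1 i) (hlev2 i)
  have himg : ∀ i, (fun z => P (lev i) (F (s (lev i)) i z)) '' closedBall n (r i) ⊆
      P (lev i) '' openBall n (s (lev i)).ρ := by
    intro i
    rintro _ ⟨z, hz, rfl⟩
    exact ⟨_, (hFi i).2.1 ⟨z, hz, rfl⟩, rfl⟩
  have hlt : ∀ i l, lev i < lev l →
      Disjoint ((fun z => P (lev i) (F (s (lev i)) i z)) '' closedBall n (r i))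
        ((fun z => P (lev l) (F (s (lev l)) l z)) '' closedBall n (r l)) := by
    intro i l hil
    have h1 : (fun z => P (lev l) (F (s (lev l)) l z)) '' closedBall n (r l) ⊆
        P (lev i + 1) '' closedBall n (s (lev i + 1)).ρ :=
      (himg l).trans ((Set.image_mono e1b_open_sub_closed).trans (hmono' _ _ hil))
    refine Set.disjoint_of_subset_right h1 ?_
    rw [Set.disjoint_left]
    rintro _ ⟨z, hz, rfl⟩ ⟨w, hw, hzw⟩
    have h2 : P (lev i) (G (s (lev i)) w) = P (lev i) (F (s (lev i)) i z) := hzw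
    have h3 := injOn_of_sympl (hPe (lev i))
      (e1b_open_sub_closed ((hst (lev i)).2.2.1 ⟨w, hw, rfl⟩))
      (e1b_open_sub_closed ((hFi i).2.1 ⟨z, hz, rfl⟩)) h2
    exact Set.disjoint_left.1 (hFi i).2.2 ⟨z, hz, rfl⟩ ⟨w, hw, h3⟩
  refine ⟨fun i z => P (lev i) (F (s (lev i)) i z), fun i => ?_, fun i => ?_, fun i l hil => ?_⟩
  · exact e1b_comp (hPe (lev i)) (hFi i).1 ((hFi i).2.1.trans e1b_open_sub_closed)
  · exact (himg i).trans (hR' (lev i))
  · rcases lt_trichotomy (lev i) (lev l) with h1 | h1 | h1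
    · exact hlt i l h1
    · have h2 := (hst (lev i)).2.2.2.2 i l (hlev1 i) (hlev2 i) (by rw [h1]; exact hlev1 l)
        (by rw [h1]; exact hlev2 l) hil
      show Disjoint ((fun z => P (lev i) (F (s (lev i)) i z)) '' closedBall n (r i))
        ((fun z => P (lev l) (F (s (lev l)) l z)) '' closedBall n (r l))
      rw [← h1, Set.disjoint_left]
      rintro _ ⟨z, hz, rfl⟩ ⟨w, hw, hzw⟩
      have hl : F (s (lev i)) l '' closedBall n (r l) ⊆ openBall n (s (lev i)).ρ := by
        rw [h1]; exact (hFi l).2.1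
      have h3 := injOn_of_sympl (hPe (lev i)) (e1b_open_sub_closed (hl ⟨w, hw, rfl⟩))
        (e1b_open_sub_closed ((hFi i).2.1 ⟨z, hz, rfl⟩)) hzw
      exact Set.disjoint_left.1 h2 ⟨z, hz, rfl⟩ ⟨w, hw, h3⟩
    · exact (hlt l i h1).symm

/-- **Transfer principle**: a packing of finitely many balls and one container gives a packing of
the whole sequence. -/
theorem transfer {n : ℕ} (hn : 1 ≤ n) (hD : CritD n) {r : ℕ → ℝ} (hr : ∀ i, 0 < r i)
    (hs : Summable fun i => r i ^ n) {R ρ : ℝ} (hρ : 0 < ρ) {K : ℕ}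
    (h : 2 ^ (n - 1) * ∑' i, r (K + i) ^ n < ρ ^ n)
    (hP : Packs (openBall n R) (fun i : Fin (K + 1) => if (i : ℕ) < K then r i else ρ)) :
    Packs (openBall n R) r := by
  classical
  refine Packs.merge (ρ := ρ) {i | K ≤ i} ?_ ?_
  · let e : Option (({i | K ≤ i} : Set ℕ)ᶜ : Set ℕ) → Fin (K + 1) := fun o =>
      o.elim (Fin.last K) fun i => ⟨i, lt_of_lt_of_le (not_le.1 i.2) (Nat.le_succ K)⟩
    have he : Function.Injective e := by
      rintro (_ | i) (_ | j) hij
      · rfl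
      · have h1 : K = (j : ℕ) := congrArg Fin.val hij
        have h2 : (j : ℕ) < K := not_le.1 j.2
        omega
      · have h1 : (i : ℕ) = K := congrArg Fin.val hij
        have h2 : (i : ℕ) < K := not_le.1 i.2
        omega
      · have h1 : (i : ℕ) = j := congrArg Fin.val hij
        exact congrArg some (Subtype.ext h1)
    have h2 := Packs.comp_inj hP e he
    have h3 : (fun k : Option (({i | K ≤ i} : Set ℕ)ᶜ : Set ℕ) =>
        if (e k : ℕ) < K then r (e k) else ρ) = fun o => o.elim ρ fun i => r i := by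
      funext o
      rcases o with _ | i
      · simp [e]
      · have h4 : (i : ℕ) < K := not_le.1 i.2
        simp [e, h4]
    rwa [h3] at h2
  · have hs' : Summable fun i => r (K + i) ^ n := by
      have := (summable_nat_add_iff (f := fun i => r i ^ n) K).2 hs
      refine this.congr fun i => ?_
      rw [add_comm]
    have h1 := packs_D hn hD (r := fun i => r (K + i)) (fun i => hr _) hs' hρ h
    have h2 := Packs.comp_inj h1 (fun i : ({i | K ≤ i} : Set ℕ) => (i : ℕ) - K) (by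
      intro i j hij
      have hi : K ≤ (i : ℕ) := i.2
      have hj : K ≤ (j : ℕ) := j.2
      have hij' : (i : ℕ) - K = (j : ℕ) - K := hij
      exact Subtype.ext (by omega))
    have h3 : (fun k : ({i | K ≤ i} : Set ℕ) => r (K + ((k : ℕ) - K))) =
        fun k : ({i | K ≤ i} : Set ℕ) => r (k : ℕ) := by
      funext i
      have hi : K ≤ (i : ℕ) := i.2
      congr 1
      omega
    rwa [h3] at h2

/-- The finite sum of the truncated family. -/
theorem sum_trunc {n : ℕ} (r : ℕ → ℝ) (ρ : ℝ) (K : ℕ) (p : ℝ → Prop) [DecidablePred p] :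
    ∑ i ∈ Finset.univ.filter (fun i : Fin (K + 1) => p (if (i : ℕ) < K then r i else ρ)),
        (if (i : ℕ) < K then r i else ρ) ^ n =
      ∑ i ∈ Finset.range K with p (r i), r i ^ n + if p ρ then ρ ^ n else 0 := by
  rw [Finset.sum_filter, Fin.sum_univ_castSucc, Finset.sum_filter,
    ← Fin.sum_univ_eq_sum_range (fun i => if p (r i) then r i ^ n else 0)]
  congr 1
  · refine Finset.sum_congr rfl fun i _ => ?_
    have : ((Fin.castSucc i : Fin _) : ℕ) < K := by simp
    simp only [if_pos this]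
    simp
  · simp

theorem sum_trunc' {n : ℕ} (r : ℕ → ℝ) (ρ : ℝ) (K : ℕ) :
    ∑ i : Fin (K + 1), (if (i : ℕ) < K then r i else ρ) ^ n =
      ∑ i ∈ Finset.range K, r i ^ n + ρ ^ n := by
  rw [Fin.sum_univ_castSucc, ← Fin.sum_univ_eq_sum_range (fun i => r i ^ n)]
  congr 1
  · refine Finset.sum_congr rfl fun i _ => ?_
    have : ((Fin.castSucc i : Fin _) : ℕ) < K := by simp
    simp only [if_pos this]
    simp
  · simp

/-- Choice of the container: it is as small as we like and leaves room in the volume. -/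
theorem exists_container {n : ℕ} (hn : 1 ≤ n) {r : ℕ → ℝ} (hr : ∀ i, 0 < r i)
    (hs : Summable fun i => r i ^ n) {V b : ℝ} (hV : ∑' i, r i ^ n < V) (hb : 0 < b) (K₀ : ℕ) :
    ∃ (K : ℕ) (ρ : ℝ), K₀ < K ∧ 0 < ρ ∧ ρ < b ∧ 2 ^ (n - 1) * ∑' i, r (K + i) ^ n < ρ ^ n ∧
      ∑ i ∈ Finset.range K, r i ^ n + ρ ^ n < V := by
  obtain ⟨ρ, hρ, hρb, h1⟩ := exists_small hn (g := V - ∑' i, r i ^ n) (C := 1)
    (sub_pos.2 hV) one_pos hb
  obtain ⟨K, hK, h2⟩ := tail_small (f := fun i => r i ^ n) (g := ρ ^ n)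
    (C := 2 ^ (n - 1)) (by positivity) (by positivity) K₀
  refine ⟨K, ρ, hK, hρ, hρb, h2, ?_⟩
  have h3 : ∑ i ∈ Finset.range K, r i ^ n ≤ ∑' i, r i ^ n :=
    hs.sum_le_tsum _ fun i _ => (pow_pos (hr _) n).le
  linarith

/-- The capacities of a convergent sequence are bounded away from `R` if they are less than `R`. -/
theorem exists_gap {n : ℕ} (hn : 1 ≤ n) {r : ℕ → ℝ} (hr : ∀ i, 0 < r i)
    (hs : Summable fun i => r i ^ n) {R : ℝ} (hR : 0 < R) (h : ∀ i, r i < R) :
    ∃ b : ℝ, 0 < b ∧ ∀ i, r i + b ≤ R := by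
  have h1 : Tendsto (fun i => r i ^ n) atTop (𝓝 0) := hs.tendsto_atTop_zero
  have h2 : ∀ᶠ i in atTop, r i ^ n < (R / 2) ^ n := h1.eventually_lt_const (by positivity)
  obtain ⟨K, hK⟩ := eventually_atTop.1 h2
  have h3 : ∀ i, K ≤ i → r i < R / 2 := fun i hi =>
    lt_of_pow_lt_pow_left₀ n (by positivity) (hK i hi)
  have h4 : ∃ b : ℝ, 0 < b ∧ ∀ i < K, r i + b ≤ R := by
    clear hK h3
    induction K with
    | zero => exact ⟨1, one_pos, fun i hi => absurd hi (Nat.not_lt_zero _)⟩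
    | succ K ih =>
      obtain ⟨b, hb, hb'⟩ := ih
      refine ⟨min b (R - r K), lt_min hb (sub_pos.2 (h K)), fun i hi => ?_⟩
      rcases Nat.lt_succ_iff_lt_or_eq.1 hi with h5 | h5
      · have := hb' i h5
        have := min_le_left b (R - r K)
        linarith
      · subst h5
        have := min_le_right b (R - r i)
        linarith
  obtain ⟨b, hb, hb'⟩ := h4
  refine ⟨min b (R / 2), by positivity, fun i => ?_⟩
  rcases lt_or_ge i K with h5 | h5
  · have := hb' i h5
    have := min_le_left b (R / 2)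
    linarith
  · have := h3 i h5
    have := min_le_right b (R / 2)
    linarith

end Vale.Agent.P209.Inf
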