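import Vale.Agent.P209.H412.Inf
import Vale.Agent.P209.H412.ConjDefs

/-! # P209: Conjecture A and its cases for infinitely many balls -/

set_option linter.all false

open Filter Topology

namespace Vale.Agent.P209

namespace Inf

open Vale.Agent.P209.Strong

theorem packs_fin_of_seq {n k : ℕ} {R : ℝ} {r : Fin k → ℝ} {r' : ℕ → ℝ}
    (h : ∀ i : Fin k, r' i = r i) (hP : Packs (openBall n R) r') : Packs (openBall n R) r := by
  have h1 := Packs.comp_inj hP (fun i : Fin k => (i : ℕ)) Fin.val_injective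
  have h2 : (fun i : Fin k => r' i) = r := funext h
  rwa [h2] at h1

theorem lt_of_sum_lt {ι : Type*} [Fintype ι] {n : ℕ} (hn : 1 ≤ n) {R : ℝ} (hR : 0 < R)
    {r : ι → ℝ} (hr : ∀ i, 0 < r i) (h : ∑ i, r i ^ n < R ^ n) (i : ι) : r i < R := by
  refine lt_of_pow_lt_pow_left₀ n hR.le ((Finset.single_le_sum (f := fun i => r i ^ n)
    (fun j _ => (pow_pos (hr j) n).le) (Finset.mem_univ i)).trans_lt h)

theorem conjA_of_seq {n : ℕ} (hn : 1 ≤ n) (h : ConjASeq n) : ConjA n := by
  intro k R r hR hr hV hp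
  have hlt := lt_of_sum_lt hn hR hr hV
  -- the room left by the pairs
  obtain ⟨b, hb, hb'⟩ : ∃ b : ℝ, 0 < b ∧ ∀ i, r i + b ≤ R := by
    rcases isEmpty_or_nonempty (Fin k) with he | he
    · exact ⟨1, one_pos, fun i => (he.false i).elim⟩
    · obtain ⟨i0, -, hi0⟩ := Finset.exists_max_image Finset.univ r Finset.univ_nonempty
      refine ⟨R - r i0, sub_pos.2 (hlt i0), fun i => ?_⟩
      have := hi0 i (Finset.mem_univ i)
      linarith
  obtain ⟨η, hη, hηb, h1⟩ := exists_small hn (g := R ^ n - ∑ i, r i ^ n) (C := 2)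
    (sub_pos.2 hV) two_pos (lt_min hb (half_pos hR))
  have hη1 : η < b := hηb.trans_le (min_le_left _ _)
  have hη2 : η < R / 2 := hηb.trans_le (min_le_right _ _)
  let r' : ℕ → ℝ := fun i => if h : i < k then r ⟨i, h⟩ else η * (1 / 2) ^ (i - k)
  have hr'1 : ∀ i (h : i < k), r' i = r ⟨i, h⟩ := fun i h => by simp only [r', dif_pos h]
  have hr'2 : ∀ i, r' (i + k) = η * (1 / 2) ^ i := fun i => by
    have : ¬ i + k < k := by omega
    simp only [r', dif_neg this]
    congr 2
    omega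
  have hle : ∀ i, k ≤ i → 0 < r' i ∧ r' i ≤ η := by
    intro i hi
    obtain ⟨j, rfl⟩ := Nat.exists_eq_add_of_le' hi
    rw [hr'2]
    refine ⟨by positivity, ?_⟩
    calc η * (1 / 2) ^ j ≤ η * 1 := by
          refine mul_le_mul_of_nonneg_left (pow_le_one₀ (by norm_num) (by norm_num)) hη.le
      _ = η := mul_one η
  have hr'3 : ∀ i, (r' (i + k)) ^ n ≤ η ^ n * (1 / 2) ^ i := by
    intro i
    rw [hr'2, mul_pow, ← pow_mul]
    refine mul_le_mul_of_nonneg_left ?_ (by positivity)
    refine pow_le_pow_of_le_one (by norm_num) (by norm_num) ?_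
    calc i = i * 1 := (mul_one i).symm
      _ ≤ i * n := Nat.mul_le_mul_left i hn
  have hgeo : Summable fun i : ℕ => η ^ n * (1 / 2 : ℝ) ^ i :=
    (summable_geometric_of_lt_one (by norm_num) (by norm_num)).mul_left _
  have hs1 : Summable fun i => r' (i + k) ^ n :=
    Summable.of_nonneg_of_le (fun i => (pow_pos (hle _ (by omega)).1 n).le) hr'3 hgeo
  have hs : Summable fun i => r' i ^ n := (summable_nat_add_iff k).1 hs1
  have hsum : ∑' i, r' i ^ n < R ^ n := by
    rw [← hs.sum_add_tsum_nat_add k]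
    have h2 : ∑ i ∈ Finset.range k, r' i ^ n = ∑ i : Fin k, r i ^ n := by
      rw [← Fin.sum_univ_eq_sum_range (fun i => r' i ^ n)]
      refine Finset.sum_congr rfl fun i _ => ?_
      rw [hr'1 i i.2]
    have h3 : ∑' i, r' (i + k) ^ n ≤ 2 * η ^ n := by
      calc ∑' i, r' (i + k) ^ n ≤ ∑' i : ℕ, η ^ n * (1 / 2 : ℝ) ^ i :=
            hs1.tsum_le_tsum hr'3 hgeo
        _ = 2 * η ^ n := by
            rw [tsum_mul_left, tsum_geometric_of_lt_one (by norm_num) (by norm_num)]
            norm_num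
            ring
    rw [h2]
    linarith
  refine packs_fin_of_seq (r' := r') (fun i => hr'1 i i.2) (h R r' hR (fun i => ?_) hs hsum ?_)
  · rcases lt_or_ge i k with hi | hi
    · rw [hr'1 i hi]; exact hr _
    · exact (hle i hi).1
  · intro i j hij
    rcases lt_or_ge j k with hj | hj
    · have hi : i < k := hij.trans hj
      rw [hr'1 i hi, hr'1 j hj]
      exact hp _ _ hij
    · have h4 := (hle j hj).2
      rcases lt_or_ge i k with hi | hi
      · rw [hr'1 i hi]
        have := hb' ⟨i, hi⟩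
        linarith
      · have := (hle i hi).2
        linarith

theorem seq_of_conjA {n : ℕ} (hn : 1 ≤ n) (hD : CritD n) (h : ConjA n) : ConjASeq n := by
  intro R r hR hr hs hV hp
  have hlt : ∀ i, r i < R := fun i => by
    have h1 := hp i (i + 1) (Nat.lt_succ_self i)
    have h2 := hr (i + 1)
    linarith
  obtain ⟨b, hb, hb'⟩ := exists_gap hn hr hs hR hlt
  obtain ⟨K, ρ, -, hρ, hρb, h1, h2⟩ := exists_container hn hr hs hV hb 0
  refine transfer hn hD hr hs hρ h1 (h _ R _ hR (fun i => ?_) ?_ ?_)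
  · split_ifs
    · exact hr _
    · exact hρ
  · rw [sum_trunc']; exact h2
  · intro i j hij
    have hij' : (i : ℕ) < j := hij
    have hj : (j : ℕ) < K + 1 := j.2
    have hi : (i : ℕ) < K := by omega
    rw [if_pos hi]
    split_ifs with hj'
    · exact hp _ _ hij'
    · have := hb' i
      linarith

/-- Strong packing stability for sequences. -/
theorem seq_A {n : ℕ} (hn : 1 ≤ n) (hD : CritD n) {ε : ℝ} (hε : 0 < ε)
    (h : ∀ (k : ℕ) (R : ℝ) (r : Fin k → ℝ), 0 < R →
      (∀ i, 0 < r i ∧ r i ≤ ε * R) → (Packs (openBall n R) r ↔ ∑ i, r i ^ n < R ^ n))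
    {R : ℝ} (hR : 0 < R) {r : ℕ → ℝ} (hr : ∀ i, 0 < r i ∧ r i ≤ ε * R) :
    (Summable (fun i => r i ^ n) → ∑' i, r i ^ n < R ^ n → Packs (openBall n R) r) ∧
    (Packs (openBall n R) r → Summable (fun i => r i ^ n) ∧ ∑' i, r i ^ n ≤ R ^ n) := by
  have hr0 : ∀ i, 0 < r i := fun i => (hr i).1
  constructor
  · intro hs hV
    obtain ⟨K, ρ, -, hρ, hρb, h1, h2⟩ := exists_container hn hr0 hs hV (mul_pos hε hR) 0
    refine transfer hn hD hr0 hs hρ h1 ((h _ R _ hR fun i => ?_).2 ?_)
    · split_ifs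
      · exact hr _
      · exact ⟨hρ, hρb.le⟩
    · rw [sum_trunc']; exact h2
  · intro hP
    have h1 : ∀ K, ∑ i ∈ Finset.range K, r i ^ n ≤ R ^ n := by
      intro K
      have h2 : Packs (openBall n R) fun i : Fin K => r i :=
        packs_fin_of_seq (fun _ => rfl) hP
      have h3 := (h K R (fun i => r i) hR fun i => hr i).1 h2
      rw [← Fin.sum_univ_eq_sum_range (fun i => r i ^ n)]
      exact h3.le
    have h4 : Summable fun i => r i ^ n :=
      summable_of_sum_range_le (fun i => (pow_pos (hr0 i) n).le) h1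
    exact ⟨h4, h4.tsum_le_of_sum_range_le h1⟩

end Inf

end Vale.Agent.P209
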