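import Vale.Agent.P209.H412.Inf2

/-! # P209: the relative criteria for infinitely many balls -/

set_option linter.all false

open Filter Topology

namespace Vale.Agent.P209.Inf

open Vale.Agent.P209.Strong

/-- Truncated sums of a selected part of a sequence. -/
theorem sum_sel {n : ℕ} {r : ℕ → ℝ} (hr : ∀ i, 0 < r i) (hs : Summable fun i => r i ^ n)
    (p : ℕ → Prop) [DecidablePred p] (K : ℕ) :
    ∑ i : Fin K, (if p i then r i ^ n else 0) ≤ ∑' i, if p i then r i ^ n else 0 := by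
  have h0 : ∀ i, 0 ≤ (if p i then r i ^ n else 0) := fun i => by
    split_ifs
    · exact (pow_pos (hr i) n).le
    · exact le_rfl
  have h1 : Summable fun i => if p i then r i ^ n else 0 :=
    Summable.of_nonneg_of_le h0 (fun i => by
      split_ifs
      · exact le_rfl
      · exact (pow_pos (hr i) n).le) hs
  rw [Fin.sum_univ_eq_sum_range (fun i => if p i then r i ^ n else 0)]
  exact h1.sum_le_tsum _ fun i _ => h0 i

open Classical in
theorem seq_C {n : ℕ} (hn : 1 ≤ n) (hD : CritD n) {ε : ℝ} (hε : 0 < ε)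
    (h : ∀ (k : ℕ) (R : ℝ) (r : Fin k → ℝ), 0 < R →
      (∀ i, 0 < r i) → ∑ i, r i ^ n < R ^ n → (∀ i j, i < j → r i + r j < R) →
      ∀ (i0 : Fin k) (B : Finset (Fin k)), (∀ i, r i ≤ r i0) →
      (B.card : ℝ) ≤ n + (ε * R / (R - r i0)) ^ (n - 1) →
      ∑ i with i ≠ i0 ∧ i ∉ B ∧ ε * (R - r i0) < r i, r i ^ n ≤ ε * (R ^ n - r i0 ^ n) →
      Packs (openBall n R) r)
    {R : ℝ} (hR : 0 < R) {r : ℕ → ℝ} (hr : ∀ i, 0 < r i) (hs : Summable fun i => r i ^ n)
    (hV : ∑' i, r i ^ n < R ^ n) (hp : ∀ i j, i < j → r i + r j < R)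
    (i0 : ℕ) (B : Finset ℕ) (hi0 : ∀ i, r i ≤ r i0)
    (hB : (B.card : ℝ) ≤ n + (ε * R / (R - r i0)) ^ (n - 1))
    (hm : ∑' i, (if i ≠ i0 ∧ i ∉ B ∧ ε * (R - r i0) < r i then r i ^ n else 0) ≤
      ε * (R ^ n - r i0 ^ n)) : Packs (openBall n R) r := by
  have hlt : ∀ i, r i < R := fun i => by
    have h1 := hp i (i + 1) (Nat.lt_succ_self i)
    have h2 := hr (i + 1)
    linarith
  obtain ⟨b, hb, hb'⟩ := exists_gap hn hr hs hR hlt
  have hc : 0 < ε * (R - r i0) := mul_pos hε (sub_pos.2 (hlt i0))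
  obtain ⟨K, ρ, hK, hρ, hρb, h1, h2⟩ := exists_container hn hr hs hV
    (lt_min hb (lt_min (hr i0) hc)) (i0 + B.sup id)
  have hρ1 : ρ < b := hρb.trans_le (min_le_left _ _)
  have hρ2 : ρ < r i0 := hρb.trans_le ((min_le_right _ _).trans (min_le_left _ _))
  have hρ3 : ρ < ε * (R - r i0) := hρb.trans_le ((min_le_right _ _).trans (min_le_right _ _))
  have hiK : i0 < K := by omega
  have hBK : ∀ i ∈ B, i < K := fun i hi => by
    have : i ≤ B.sup id := Finset.le_sup (f := id) hi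
    omega
  set r' : Fin (K + 1) → ℝ := fun i => if (i : ℕ) < K then r i else ρ with hr'
  have hi0' : r' ⟨i0, by omega⟩ = r i0 := by simp [r', hiK]
  let B' : Finset (Fin (K + 1)) := Finset.univ.filter fun i => (i : ℕ) ∈ B
  have hBc : B'.card ≤ B.card := by
    refine Finset.card_le_card_of_injOn (fun i => (i : ℕ)) (fun i hi => ?_) ?_
    · exact (Finset.mem_filter.1 hi).2
    · exact fun i _ j _ hij => Fin.ext hij
  refine transfer hn hD hr hs hρ h1 (h _ R r' hR (fun i => ?_) ?_ ?_ ⟨i0, by omega⟩ B' ?_ ?_ ?_)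
  · simp only [r']; split_ifs
    · exact hr _
    · exact hρ
  · rw [hr', sum_trunc']; exact h2
  · intro i j hij
    have hij' : (i : ℕ) < j := hij
    have hj : (j : ℕ) < K + 1 := j.2
    have hi : (i : ℕ) < K := by omega
    simp only [r', if_pos hi]
    split_ifs with hj'
    · exact hp _ _ hij'
    · have := hb' i
      linarith
  · intro i
    rw [hi0']
    simp only [r']; split_ifs
    · exact hi0 _
    · exact hρ2.le
  · rw [hi0']
    have : (B'.card : ℝ) ≤ B.card := by exact_mod_cast hBc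
    exact this.trans hB
  · rw [hi0', Finset.sum_filter, Fin.sum_univ_castSucc]
    have hlast : ¬ (Fin.last K ≠ (⟨i0, by omega⟩ : Fin (K + 1)) ∧ Fin.last K ∉ B' ∧
        ε * (R - r i0) < r' (Fin.last K)) := by
      rintro ⟨-, -, h3⟩
      have : r' (Fin.last K) = ρ := by simp [r']
      rw [this] at h3
      linarith
    rw [if_neg hlast, add_zero]
    refine le_trans (le_of_eq ?_) ((sum_sel hr hs
      (fun i => i ≠ i0 ∧ i ∉ B ∧ ε * (R - r i0) < r i) K).trans hm)
    refine Finset.sum_congr rfl fun i _ => ?_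
    have e1 : r' i.castSucc = r i := by simp [r']
    have e2 : (i.castSucc ≠ (⟨i0, by omega⟩ : Fin (K + 1))) ↔ (i : ℕ) ≠ i0 := by
      rw [Ne, Fin.ext_iff]; rfl
    have e3 : i.castSucc ∉ B' ↔ (i : ℕ) ∉ B := by simp [B']
    rw [e1]
    refine if_congr ?_ rfl rfl
    rw [e2, e3]

open Classical in
theorem seq_E {n : ℕ} (hn : 1 ≤ n) (hD : CritD n) {ε γ : ℝ} (hε : 0 < ε)
    (h : ∀ (k : ℕ) (R : ℝ) (r : Fin k → ℝ),
      0 < R → (∀ i, 0 < r i) → 2 ^ (n - 1) * ∑ i with ε * R < r i, r i ^ n ≤ (1 - γ) * R ^ n →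
      ∑ i, r i ^ n < R ^ n → Packs (openBall n R) r)
    {R : ℝ} (hR : 0 < R) {r : ℕ → ℝ} (hr : ∀ i, 0 < r i) (hs : Summable fun i => r i ^ n)
    (hm : 2 ^ (n - 1) * ∑' i, (if ε * R < r i then r i ^ n else 0) ≤ (1 - γ) * R ^ n)
    (hV : ∑' i, r i ^ n < R ^ n) : Packs (openBall n R) r := by
  obtain ⟨K, ρ, hK, hρ, hρb, h1, h2⟩ := exists_container hn hr hs hV (mul_pos hε hR) 0
  set r' : Fin (K + 1) → ℝ := fun i => if (i : ℕ) < K then r i else ρ with hr'
  refine transfer hn hD hr hs hρ h1 (h _ R r' hR (fun i => ?_) ?_ ?_)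
  · simp only [r']; split_ifs
    · exact hr _
    · exact hρ
  · refine le_trans (mul_le_mul_of_nonneg_left ?_ (by positivity)) hm
    rw [Finset.sum_filter, Fin.sum_univ_castSucc]
    have hlast : ¬ ε * R < r' (Fin.last K) := by
      have : r' (Fin.last K) = ρ := by simp [r']
      rw [this]
      exact not_lt.2 hρb.le
    rw [if_neg hlast, add_zero]
    refine le_trans (le_of_eq ?_) (sum_sel hr hs (fun i => ε * R < r i) K)
    refine Finset.sum_congr rfl fun i _ => ?_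
    have e1 : r' i.castSucc = r i := by simp [r']
    rw [e1]
  · rw [hr', sum_trunc']; exact h2

open Classical in
theorem seq_H {n : ℕ} (hn : 1 ≤ n) (hD : CritD n)
    (h : ∀ (k : ℕ) (R : ℝ) (r : Fin k → ℝ), 0 < R → (∀ i, 0 < r i) →
      ∑ i, r i ^ n < R ^ n → (∀ i j, i < j → r i + r j < R) → ∀ i0 : Fin k, (∀ i, r i ≤ r i0) →
      3 ^ n * ∑ i with i ≠ i0, r i ^ n ≤ R ^ n - r i0 ^ n → Packs (openBall n R) r)
    {R : ℝ} (hR : 0 < R) {r : ℕ → ℝ} (hr : ∀ i, 0 < r i) (hs : Summable fun i => r i ^ n)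
    (hp : ∀ i j, i < j → r i + r j < R) (i0 : ℕ) (hi0 : ∀ i, r i ≤ r i0)
    (hm : 3 ^ n * ∑' i, (if i ≠ i0 then r i ^ n else 0) < R ^ n - r i0 ^ n) :
    Packs (openBall n R) r := by
  have hlt : ∀ i, r i < R := fun i => by
    have h1 := hp i (i + 1) (Nat.lt_succ_self i)
    have h2 := hr (i + 1)
    linarith
  obtain ⟨b, hb, hb'⟩ := exists_gap hn hr hs hR hlt
  -- the whole sum is the largest term plus the others
  have h0 : ∀ i, 0 ≤ (if i ≠ i0 then r i ^ n else 0) := fun i => by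
    split_ifs
    · exact (pow_pos (hr i) n).le
    · exact le_rfl
  have hs1 : Summable fun i => if i ≠ i0 then r i ^ n else 0 :=
    Summable.of_nonneg_of_le h0 (fun i => by
      split_ifs
      · exact le_rfl
      · exact (pow_pos (hr i) n).le) hs
  have hsum : ∑' i, r i ^ n = r i0 ^ n + ∑' i, (if i ≠ i0 then r i ^ n else 0) := by
    rw [hs.tsum_eq_add_tsum_ite i0]
    congr 1
    refine tsum_congr fun i => ?_
    by_cases hi : i = i0
    · simp [hi]
    · simp [hi]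
  have hV : ∑' i, r i ^ n < r i0 ^ n + (R ^ n - r i0 ^ n) / 3 ^ n := by
    rw [hsum]
    have h3 : (0 : ℝ) < 3 ^ n := by positivity
    have h4 : ∑' i, (if i ≠ i0 then r i ^ n else 0) < (R ^ n - r i0 ^ n) / 3 ^ n := by
      rw [lt_div_iff₀ h3, mul_comm]; exact hm
    linarith
  obtain ⟨K, ρ, hK, hρ, hρb, h1, h2⟩ := exists_container hn hr hs hV
    (lt_min hb (hr i0)) i0
  have hρ1 : ρ < b := hρb.trans_le (min_le_left _ _)
  have hρ2 : ρ < r i0 := hρb.trans_le (min_le_right _ _)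
  set r' : Fin (K + 1) → ℝ := fun i => if (i : ℕ) < K then r i else ρ with hr'
  have hi0' : r' ⟨i0, by omega⟩ = r i0 := by simp [r', hK]
  have h3 : (1 : ℝ) ≤ 3 ^ n := one_le_pow₀ (by norm_num)
  have hpos : 0 ≤ R ^ n - r i0 ^ n := by
    have := pow_le_pow_left₀ (hr i0).le (hlt i0).le n
    linarith
  have h5 : (R ^ n - r i0 ^ n) / 3 ^ n ≤ R ^ n - r i0 ^ n := div_le_self hpos h3
  have hrest : ∑ i with i ≠ (⟨i0, by omega⟩ : Fin (K + 1)), r' i ^ n =
      ∑ i, r' i ^ n - r i0 ^ n := by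
    rw [Finset.filter_ne', ← Finset.sum_erase_add Finset.univ (fun i => r' i ^ n)
      (Finset.mem_univ (⟨i0, by omega⟩ : Fin (K + 1))), hi0']
    ring
  have hall : ∑ i, r' i ^ n < r i0 ^ n + (R ^ n - r i0 ^ n) / 3 ^ n := by
    rw [hr', sum_trunc']; exact h2
  refine transfer hn hD hr hs hρ h1 (h _ R r' hR (fun i => ?_) ?_ ?_ ⟨i0, by omega⟩ ?_ ?_)
  · simp only [r']; split_ifs
    · exact hr _
    · exact hρ
  · linarith
  · intro i j hij
    have hij' : (i : ℕ) < j := hij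
    have hj : (j : ℕ) < K + 1 := j.2
    have hi : (i : ℕ) < K := by omega
    simp only [r', if_pos hi]
    split_ifs with hj'
    · exact hp _ _ hij'
    · have := hb' i
      linarith
  · intro i
    rw [hi0']
    simp only [r']; split_ifs
    · exact hi0 _
    · exact hρ2.le
  · rw [hi0', hrest]
    have h6 : (0 : ℝ) < 3 ^ n := by positivity
    have h7 : ∑ i, r' i ^ n - r i0 ^ n ≤ (R ^ n - r i0 ^ n) / 3 ^ n := by linarith
    calc 3 ^ n * (∑ i, r' i ^ n - r i0 ^ n) ≤ 3 ^ n * ((R ^ n - r i0 ^ n) / 3 ^ n) :=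
          mul_le_mul_of_nonneg_left h7 h6.le
      _ = R ^ n - r i0 ^ n := by field_simp

end Vale.Agent.P209.Inf
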