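import Vale.Agent.P209.H412.Inf3

/-! # P209: infinitely many balls, all statements -/

set_option linter.all false

open Filter Topology

namespace Vale.Agent.P209.Inf

open Vale.Agent.P209.Strong

theorem critD {n : ℕ} (hn : 1 ≤ n) : CritD n := fun k R r hR hr h =>
  V.main2.2.2.2.1 n k hn R r hR hr h

/-- Conjecture A for finite families is equivalent to Conjecture A for sequences. -/
theorem main_iff {n : ℕ} (hn : 1 ≤ n) : ConjA n ↔ ConjASeq n :=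
  ⟨seq_of_conjA hn (critD hn), conjA_of_seq hn⟩

open Classical in
theorem main_seq :
    (∀ (n K : ℕ) (R ρ : ℝ) (r : ℕ → ℝ), 1 ≤ n → 0 < ρ → (∀ i, 0 < r i) →
      Summable (fun i => r i ^ n) → 2 ^ (n - 1) * ∑' i, r (K + i) ^ n < ρ ^ n →
      Packs (openBall n R) (fun i : Fin (K + 1) => if (i : ℕ) < K then r i else ρ) →
      Packs (openBall n R) r) ∧
    (∀ n : ℕ, 2 ≤ n → ∃ ε : ℝ, 0 < ε ∧ ∀ (R : ℝ) (r : ℕ → ℝ), 0 < R →
      (∀ i, 0 < r i ∧ r i ≤ ε * R) →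
      (Summable (fun i => r i ^ n) → ∑' i, r i ^ n < R ^ n → Packs (openBall n R) r) ∧
      (Packs (openBall n R) r → Summable (fun i => r i ^ n) ∧ ∑' i, r i ^ n ≤ R ^ n)) ∧
    (∀ n : ℕ, 2 ≤ n → ∃ ε : ℝ, 0 < ε ∧ ∀ (R : ℝ) (r : ℕ → ℝ), 0 < R → (∀ i, 0 < r i) →
      Summable (fun i => r i ^ n) → ∑' i, r i ^ n < R ^ n → (∀ i j, i < j → r i + r j < R) →
      ∀ (i0 : ℕ) (B : Finset ℕ), (∀ i, r i ≤ r i0) →
      (B.card : ℝ) ≤ n + (ε * R / (R - r i0)) ^ (n - 1) →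
      ∑' i, (if i ≠ i0 ∧ i ∉ B ∧ ε * (R - r i0) < r i then r i ^ n else 0) ≤
        ε * (R ^ n - r i0 ^ n) → Packs (openBall n R) r) ∧
    (∀ n : ℕ, 1 ≤ n → ∀ (R : ℝ) (r : ℕ → ℝ), 0 < R → (∀ i, 0 < r i) →
      Summable (fun i => r i ^ n) → 2 ^ (n - 1) * ∑' i, r i ^ n < R ^ n →
      Packs (openBall n R) r) ∧
    (∀ n : ℕ, 2 ≤ n → ∀ γ : ℝ, 0 < γ → ∃ ε : ℝ, 0 < ε ∧ ∀ (R : ℝ) (r : ℕ → ℝ), 0 < R →
      (∀ i, 0 < r i) → Summable (fun i => r i ^ n) →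
      2 ^ (n - 1) * ∑' i, (if ε * R < r i then r i ^ n else 0) ≤ (1 - γ) * R ^ n →
      ∑' i, r i ^ n < R ^ n → Packs (openBall n R) r) ∧
    (∀ n : ℕ, 3 ≤ n → ∀ (R : ℝ) (r : ℕ → ℝ), 0 < R → (∀ i, 0 < r i) →
      Summable (fun i => r i ^ n) → (∀ i j, i < j → r i + r j < R) → ∀ i0 : ℕ,
      (∀ i, r i ≤ r i0) → 3 ^ n * ∑' i, (if i ≠ i0 then r i ^ n else 0) < R ^ n - r i0 ^ n →
      Packs (openBall n R) r) := by
  obtain ⟨hA, -, hC, -, hE, -, -, hH, -⟩ := V.main2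
  refine ⟨?_, ?_, ?_, ?_, ?_, ?_⟩
  · intro n K R ρ r hn hρ hr hs h hP
    exact transfer hn (critD hn) hr hs hρ h hP
  · intro n hn
    obtain ⟨ε, hε, h⟩ := hA n hn
    exact ⟨ε, hε, fun R r hR hr => seq_A (by omega) (critD (by omega)) hε h hR hr⟩
  · intro n hn
    obtain ⟨ε, hε, h⟩ := hC n hn
    refine ⟨ε, hε, fun R r hR hr hs hV hp i0 B hi0 hB hm => ?_⟩
    refine seq_C (by omega) (critD (by omega)) hε (fun k R r hR hr hV hp i0 B hi0 hB hm => ?_)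
      hR hr hs hV hp i0 B hi0 hB hm
    refine h k R r hR hr hV hp i0 B hi0 hB (le_trans (le_of_eq ?_) hm)
    refine Finset.sum_congr ?_ fun _ _ => rfl
    ext i
    simp only [Finset.mem_filter]
  · intro n hn R r hR hr hs h
    exact packs_D hn (critD hn) hr hs hR h
  · intro n hn γ hγ
    obtain ⟨ε, hε, h⟩ := hE n hn γ hγ
    refine ⟨ε, hε, fun R r hR hr hs hm hV => ?_⟩
    refine seq_E (by omega) (critD (by omega)) hε (fun k R r hR hr hm hV => ?_) hR hr hs hm hV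
    refine h k R r hR hr (le_trans (le_of_eq ?_) hm) hV
    congr 1
  · intro n hn R r hR hr hs hp i0 hi0 hm
    refine seq_H (by omega) (critD (by omega)) (fun k R r hR hr hV hp i0 hi0 hm => ?_)
      hR hr hs hp i0 hi0 hm
    refine hH n k hn R r hR hr hV hp i0 hi0 (le_trans (le_of_eq ?_) hm)
    congr 1

end Vale.Agent.P209.Inf
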